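import Crest.Agent.X262.Hb64.Rep
import Crest.Agent.X262.Syz.Emb

/-!
# Row 262, road B, Hb64 (helper64), part 8: `smoStmt`, `genStmt`, `vir'`
-/

set_option autoImplicit false

noncomputable section

namespace Crest.Agent.X262.Hb64

open Crest.Agent.X262.Coh

theorem smoStmt : Gwb.SmoStmt := fun _ m => Syz.Cut.smo_emb m m.toPre.tgt_isEq

theorem genStmt : Gwb.GenStmt := fun _ m =>
  Syz.Cut.genPt (show Syz.Cut m.tgt (Syz.py m) from m.tgt_isEq) (Syz.nz_py m) (Syz.gen_py m)

/-- the inputs of the invariants for the instance, without the statements on the target -/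
def vir' (C : Coh.Th) [Ok C]
    (hd : ∀ {Y : SV} (m : Gwb.Emb Y) {ι : Type} [Fintype ι] (u u' : ι → C.H Y),
    (∀ a b, C.itg Y (a * b) = ∑ l, C.itg Y (a * u l) * C.itg Y (b * u' l)) →
    Vb.Diag (th C) m.tgt (fun l => ((inst C).e m.toPre).fam (u l))
      fun l => ((inst C).e m.toPre).fam (u' l))
    (ax0 : Vb.Ax0Stmt) (axS : Vb.AxSStmt) (deg0 : Vb.Deg0Stmt) (wdvv : Vb.WdvvStmt) :
    Gwb.Vir C (th C) := vir C hd smoStmt genStmt ax0 axS deg0 wdvv

end Crest.Agent.X262.Hb64
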