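import Crest.Agent.X262.Hb64.Itg

/-!
# Row 262, road B, Hb64 (helper64), part 4: the first Chern class and locality

* `c1H C`  : the first Chern class on the limit; `c1H_gen`, `c1H_pr`;
* `LPbK w b a u`, `ev_c1` : the pull-back of a line bundle along a field valued point;
* `ev_hc`  : the pull-back of the hyperplane class; `pbH_c1`;
* `locH`   : a class depends on the values of finitely many functions.
-/

set_option autoImplicit false

noncomputable section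

namespace Crest.Agent.X262.Hb64

open Crest.Agent.X277 Crest.Agent.X277.Lef Crest.Agent.X277.AN.G1 Crest.Agent.X277.BD
  Crest.Agent.X277.BD.Br Crest.Agent.X262.Coh KP
open Crest.Agent.X277.Strat.Fac (two_pt un_plc)

variable {X Y : SV} {K E L : Type} [Field K] [Algebra ℂ K] [Field E] [Algebra ℂ E] [Field L]
  [Algebra ℂ L]

theorem exists_pb_free {a : BD ℂ K} (ha : Free a) : ∃ s : Finset K,
    ∀ K₀ : IntermediateField ℂ K, (∀ g ∈ s, g ∈ K₀) → ∃ b : BD ℂ K₀, a = pb K₀.val b := by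
  obtain ⟨s, h1, h2⟩ := ha
  refine ⟨s, fun K₀ h => ⟨mxf ℂ fun g : s => (⟨g, h g g.2⟩ : K₀), ?_⟩⟩
  rw [pb_mxf]
  exact eq_mxf (fun g => h1 g g.2) fun V => (h2 V).elim fun g hg => ⟨⟨g, hg.1⟩, hg.2⟩

/-- a b-divisor is a Cartier divisor on a model of a finitely generated subfield -/
theorem exists_pb (a : BD ℂ K) :
    ∃ (i : Ix K) (b : BD ℂ i.K₀), b ∈ On i.P ∧ a = pb i.K₀.val b := by
  classical
  obtain ⟨b, c, hb, hc, rfl⟩ := exists_sub a
  obtain ⟨s, hs⟩ := exists_pb_free hb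
  obtain ⟨t, ht⟩ := exists_pb_free hc
  have := eft_adjoin (s ∪ t)
  obtain ⟨b', rfl⟩ := hs (IntermediateField.adjoin ℂ ((s ∪ t : Finset K) : Set K))
    fun g hg => IntermediateField.subset_adjoin _ _ (by simp [hg])
  obtain ⟨c', rfl⟩ := ht (IntermediateField.adjoin ℂ ((s ∪ t : Finset K) : Set K))
    fun g hg => IntermediateField.subset_adjoin _ _ (by simp [hg])
  obtain ⟨P, hP⟩ := Unf.exists_on {b' - c'}
  exact ⟨⟨_, P⟩, b' - c', hP _ (Finset.mem_singleton_self _), (map_sub _ _ _).symm⟩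

/-- two generators at points of the closure of `w` differ by a unit of its local ring -/
theorem exists_frac {W : Subalgebra ℂ X.F} {x x₀ : X.Pt} (hx : (lp x).O ≤ W) (hx₀ : (lp x₀).O ≤ W)
    {b : BD ℂ X.F} {g u : X.F} (hg : At b x g) (hu : At b x₀ u) :
    ∃ c ∈ (lp x).O, Res.Out.Un W c ∧ c * (g / u) ∈ (lp x).O := by
  classical
  obtain ⟨T, h1, h2⟩ := exists_finset_le (a := -b) (S := (lp x₀).O) (u := u⁻¹)
    fun V hV => (hu.neg V hV).le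
  choose! a ha c hc h3 h4 using fun t (ht : t ∈ T) => two_pt hx₀ hx (h1 t ht)
  have h5 : ∏ t ∈ T, c t ∈ (lp x).O := prod_mem hc
  obtain ⟨N, hN⟩ := exists_pow_mem (k := ℂ) (S := (lp x).O) (f := g / u) h5 fun V hV hi => by
    have h6 := h2 V fun t ht => by
      have h7 : t = a t * (∏ s ∈ T.erase t, c s) * (∏ s ∈ T, c s)⁻¹ := by
        rw [← h4 t ht, mul_assoc t, Finset.mul_prod_erase _ _ ht, mul_inv_cancel_right₀
          (Finset.prod_ne_zero_iff.2 fun s hs => (h3 s hs).1)]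
      rw [h7]
      exact mul_mem (mul_mem (hV _ (ha t ht))
        (hV _ (prod_mem fun s hs => hc s (Finset.mem_of_mem_erase hs)))) hi
    rw [map_inv₀, val_neg, inv_le_inv₀ (RZ.pos hu.ne) (b.val_pos V), ← hg V hV] at h6
    exact (RZ.le_iff hu.ne).1 h6
  exact ⟨_, pow_mem h5 N, (Res.Out.Un.prod _ h3).pow N,
    mem_lp_iff'.2 fun V hV => RZ.le_one_iff.2 (hN V hV)⟩

theorem KP.Same.at_div {w w' : KP X K} (h : w.Same w') {x x₀ : X.Pt} (hx : (lp x).O ≤ w.p.O)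
    (hx₀ : (lp x₀).O ≤ w.p.O) {b : BD ℂ X.F} {g u : X.F} (hg : At b x g) (hu : At b x₀ u) :
    g / u ∈ w'.p.O ∧ w.p.π (g / u) = w'.p.π (g / u) := by
  obtain ⟨c, h1, h2, h3⟩ := exists_frac hx hx₀ hg hu
  have h4 := un_plc.1 h2
  have h5 := h.at hx h1
  have h6 := h.at hx h3
  rw [← mul_div_cancel_left₀ (g / u) h2.1, Plc.π_div (hx h3) h4, Plc.π_div h6.1 (h5.2 ▸ h4), h5.2,
    h6.2]
  exact ⟨Plc.div_mem h6.1 (h5.2 ▸ h4), Eq.refl _⟩

/-- `O(a)` is the pull-back of `O(b)` along the point `w`; the section `u` goes to `1` -/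
structure LPbK (w : KP X K) (b : BD ℂ X.F) (a : BD ℂ K) (u : X.F) : Prop where
  gen : ∃ x₀ : X.Pt, (lp x₀).O ≤ w.p.O ∧ At b x₀ u
  val : ∀ (W : RZ ℂ K) (x : X.Pt) (g : X.F), (∀ f ∈ (lp x).O, f ∈ w.p.O ∧ w.p.π f ∈ W.1) →
    At b x g → W.v (w.p.π (g / u)) = a.val W

theorem LPbK.lpb {w : KP X K} {b : BD ℂ X.F} {u : X.F} {μ : Hom Y X} {β : Y.F →ₐ[ℂ] K}
    {b' : BD ℂ Y.F} (h : LPbK w b (pb β b') u) (hμ : ((Hb64.gen Y β).map μ).Same w) :
    LPbU μ b b' u := by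
  intro y g hg W' hW'
  obtain ⟨W, rfl⟩ := cm_surjective β W'
  obtain ⟨x₀, h1, h2⟩ := h.gen
  have h3 : (lp (μ.map y)).O ≤ ((Hb64.gen Y β).map μ).p.O :=
    fun _ hf => ⟨μ.mem_O hf, Algebra.mem_top⟩
  have h4 := h.val W (μ.map y) g (fun f hf => ⟨(hμ.at h3 hf).1,
    (hμ.at h3 hf).2 ▸ hW' _ (μ.π_mem hf)⟩) hg
  rw [← (hμ.at_div h3 (fun _ hf => (hμ.symm.at h1 hf).1) hg h2).2] at h4
  exact v_eq_val_mp.1 h4

variable (C : Coh.Th) [hC : Ok C]

theorem c1_congr {α : X.F →ₐ[ℂ] K} {β : Y.F →ₐ[ℂ] K} {a : BD ℂ X.F} {b : BD ℂ Y.F}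
    (ha : a ∈ X.On) (hb : b ∈ Y.On) (h : pb α a = pb β b) :
    ev C (gen X α) (C.c1 X a) = ev C (gen Y β) (C.c1 Y b) := by
  obtain ⟨i, μ, ν, h1, h2⟩ := exists_ix₂ (gen X α) (gen Y β)
  obtain ⟨α', h3, rfl⟩ := exists_hom_of_same h1
  obtain ⟨β', h4, rfl⟩ := exists_hom_of_same h2
  rw [← pb_pb, ← pb_pb] at h
  rw [ev_eq C h1, ev_eq C h2, hC.man.c1_dmn h3 ha, hC.man.c1_dmn h4 hb, pb_injective _ h]

/-- the first Chern class as a function -/
def c1F (a : BD ℂ K) : HH C K :=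
  ev C (exists_pb a).choose.w (C.c1 _ (exists_pb a).choose_spec.choose)

theorem c1F_gen (α : X.F →ₐ[ℂ] K) {a : BD ℂ X.F} (ha : a ∈ X.On) :
    c1F C (pb α a) = ev C (gen X α) (C.c1 X a) :=
  c1_congr C (exists_pb _).choose_spec.choose_spec.1 ha
    (exists_pb _).choose_spec.choose_spec.2.symm

/-- the first Chern class -/
def c1H : BD ℂ K →+ HH C K := AddMonoidHom.mk' (c1F C) fun a b => by
  obtain ⟨i, a, ha, rfl⟩ := exists_pb a
  obtain ⟨j, b, hb, rfl⟩ := exists_pb b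
  obtain ⟨k, μ, ν, h1, h2⟩ := exists_ix₂ i.w j.w
  obtain ⟨α, h3, h5⟩ := exists_hom_of_same h1
  obtain ⟨β, h4, h6⟩ := exists_hom_of_same h2
  have h7 := pb_mem_On h3 ha
  have h8 := pb_mem_On h4 hb
  rw [← h5, ← h6, ← pb_pb, ← pb_pb, ← map_add, c1F_gen C (X := k.S) _ (add_mem h7 h8),
    c1F_gen C (X := k.S) _ h7, c1F_gen C (X := k.S) _ h8, hC.man.c1_add _ _ h7 _ h8, map_add]

theorem c1H_gen (α : X.F →ₐ[ℂ] K) {a : BD ℂ X.F} (ha : a ∈ X.On) :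
    c1H C (pb α a) = ev C (gen X α) (C.c1 X a) := c1F_gen C α ha

theorem c1H_id {P : PModel ℂ K} {a : BD ℂ K} (ha : a ∈ On P) :
    c1H C a = ev C (gen (sv P) (AlgHom.id ℂ K)) (C.c1 (sv P) a) := by
  rw [← c1H_gen C (X := sv P) _ ha, pb_id]

theorem c1H_pr (f : K) : c1H C (pr ℂ f) = 0 := by
  have := eft_adjoin {f}
  obtain ⟨P⟩ := Unf.nonempty_pmodel (F := IntermediateField.adjoin ℂ (({f} : Finset K) : Set K))
  have h := c1H_gen C (X := sv P) (IntermediateField.val _)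
    (pr_mem ⟨f, IntermediateField.subset_adjoin _ _ (by simp)⟩)
  rwa [pb_pr, hC.man.c1_pr, map_zero] at h

theorem c1H_lin {a b : BD ℂ K} (h : Lin a b) : c1H C a = c1H C b := by
  obtain ⟨f, -, rfl⟩ := h
  rw [map_add, c1H_pr, add_zero]

theorem tyH_c1 (a : BD ℂ K) : c1H C a ∈ tyH C K 1 1 := by
  obtain ⟨i, b, hb, rfl⟩ := exists_pb a
  rw [c1H_gen C (X := i.S) _ hb]
  exact ev_mem_tyH C _ (hC.typ.c1 i.S b hb)

/-- the first Chern class is natural for field valued points -/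
theorem ev_c1 {w : KP X K} {b : BD ℂ X.F} {a : BD ℂ K} {u : X.F} (hb : b ∈ X.On)
    (h : LPbK w b a u) : ev C w (C.c1 X b) = c1H C a := by
  obtain ⟨j, a, ha, rfl⟩ := exists_pb a
  obtain ⟨k, μ, ν, h1, h2⟩ := exists_ix₂ w j.w
  obtain ⟨β, h3, h4⟩ := exists_hom_of_same h2
  rw [← h4, ← pb_pb] at h ⊢
  rw [c1H_gen C (X := k.S) _ (pb_mem_On h3 ha), ev_of_same C h1,
    hC.man.c1_pb μ b hb _ ⟨u, h.lpb h1⟩]

omit hC in
theorem lpbK_h (w : KP X K) {i : Fin (X.P.N + 1)} (hi : ∀ j, X.P.y j / X.P.y i ∈ w.p.O) :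
    LPbK w X.h (mxf ℂ fun j => w.p.π (X.P.y j / X.P.y i)) (X.P.y i) := by
  obtain ⟨x₀, h1, h2⟩ := Strat.Fac.exists_pt_le (P := X.P) (i := i) (q := w.p)
    (Algebra.adjoin_le (Set.range_subset_iff.2 hi))
  refine ⟨⟨x₀, h2, at_y h1⟩, fun W x g h3 hg => ?_⟩
  obtain ⟨j, hj⟩ := exists_pat x
  have h4 : w.p.π (X.P.y j / X.P.y i) ≠ 0 := un_plc.1 ⟨div_ne_zero (X.P.y_ne j) (X.P.y_ne i),
    hi j, by rw [inv_div]; exact (h3 _ (y_mem hj i)).1⟩
  have h5 := hg.ev_div_ne (at_y hj)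
  have h6 := h3 _ (LP.mem_of_ne h5)
  have h7 := h3 _ ((lp x).inv_mem h5)
  have h8 : w.p.π (g / X.P.y j) ≠ 0 := un_plc.1 ⟨LP.ne_zero_of_ne h5, h6.1, h7.1⟩
  rw [Plc.π_inv h8] at h7
  rw [val_mxf (i := j) h4 fun l => (RZ.le_iff h4).2 ((w.chg hi h4 l).2 ▸ (h3 _ (y_mem hj l)).2),
    ← div_mul_div_cancel₀ (X.P.y_ne j), w.p.π_mul h6.1 (hi j), map_mul,
    Cns.un_iff_val.1 ⟨h8, h6.2, h7.2⟩, one_mul]

/-- the pull-back of the hyperplane class -/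
theorem ev_hc (w : KP X K) {i : Fin (X.P.N + 1)} (hi : ∀ j, X.P.y j / X.P.y i ∈ w.p.O) :
    ev C w (C.hc X) = c1H C (mxf ℂ fun j => w.p.π (X.P.y j / X.P.y i)) :=
  ev_c1 C oP_mem (lpbK_h w hi)

theorem pbH_c1 (p : Hb.LP K E) (a : BD ℂ K) : pbH C p (c1H C a) = c1H C (p.rs a) := by
  obtain ⟨i, b, hb, rfl⟩ := exists_pb a
  obtain ⟨x₀, h1⟩ := (i.w.red p).pt
  obtain ⟨u, hu⟩ := hb x₀
  have h2 : p.V.v (i.K₀.val u) = (pb i.K₀.val b).val p.V :=
    (val_mp (hu (cm _ (alg_ov i.K₀.val) p.V) fun f hf => (h1 hf).2)).symm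
  rw [c1H_gen C (X := i.S) _ hb, pbH_ev, c1H_lin C (Pl.lin_rs h2)]
  refine ev_c1 C hb (u := u) ⟨⟨x₀, h1, hu⟩, fun W x g h3 hg => ?_⟩
  have h4 : (p.cm W).v (i.K₀.val g) = (pb i.K₀.val b).val (p.cm W) :=
    (val_mp (hg (cm _ (alg_ov i.K₀.val) (p.cm W)) fun f hf => ⟨(h3 f hf).1.2, (h3 f hf).2⟩)).symm
  refine (Pl.val_res (g := i.K₀.val (g / u)) (Pl.val_sub_gen h2) ?_).symm
  rw [map_div₀, map_div₀, val_sub, val_pr (ne_of_val h2), h4]

/-! ### locality -/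

open Classical in
/-- the pull-back to the point with given coordinates -/
def evC (a : C.H X) (i : Fin (X.P.N + 1)) (c : Fin (X.P.N + 1) → E) : HH C E :=
  if h : ∃ w : KP X E, ∀ j, X.P.y j / X.P.y i ∈ w.p.O ∧ w.p.π (X.P.y j / X.P.y i) = c j then
    ev C h.choose a else 0

theorem evC_eq (a : C.H X) {i : Fin (X.P.N + 1)} {c : Fin (X.P.N + 1) → E} {w : KP X E}
    (h : ∀ j, X.P.y j / X.P.y i ∈ w.p.O ∧ w.p.π (X.P.y j / X.P.y i) = c j) :
    evC C a i c = ev C w a := by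
  have h1 : ∃ w : KP X E, ∀ j, X.P.y j / X.P.y i ∈ w.p.O ∧ w.p.π (X.P.y j / X.P.y i) = c j :=
    ⟨w, h⟩
  rw [evC, dif_pos h1]
  exact ev_same C (same_of_chart (fun j => (h1.choose_spec j).1) (fun j => (h j).1)
    fun j => (h1.choose_spec j).2.trans (h j).2.symm) a

theorem evC_map (a : C.H X) (i : Fin (X.P.N + 1)) (c : Fin (X.P.N + 1) → E) (α : E →ₐ[ℂ] L) :
    evC C a i (fun j => α (c j)) = pbH C (Hb.LP.hom α) (evC C a i c) := by
  by_cases h : ∃ w : KP X E, ∀ j, X.P.y j / X.P.y i ∈ w.p.O ∧ w.p.π (X.P.y j / X.P.y i) = c j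
  · obtain ⟨w, h⟩ := h
    rw [evC_eq C a h, pbH_ev]
    refine evC_eq C a fun j => ?_
    rw [red_hom_p]
    exact ⟨⟨(h j).1, Algebra.mem_top⟩, congrArg α (h j).2⟩
  · rw [evC, evC, dif_neg h, map_zero, dif_neg]
    rintro ⟨w', h'⟩
    obtain ⟨w₀, h1⟩ := exists_desc w' (fun j => (h' j).1) α.fieldRange fun j => ⟨c j, (h' j).2.symm⟩
    obtain ⟨x, h2, h3⟩ := Strat.Fac.exists_pt_le (P := X.P) (i := i) (q := w'.p)
      (Algebra.adjoin_le (Set.range_subset_iff.2 fun j => (h' j).1))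
    refine h ⟨w₀.red (Hb.LP.hom α.equivFieldRange.symm.toAlgHom), fun j => ?_⟩
    have h4 := h1.symm.at h3 (y_mem h2 j)
    rw [red_hom_p] at h4 ⊢
    refine ⟨⟨h4.1.1, Algebra.mem_top⟩, ?_⟩
    exact α.equivFieldRange.symm_apply_eq.2 (Subtype.ext (h4.2.symm.trans (h' j).2))

omit hC in
theorem mem_iff_r (p : Hb.LP K E) (f : K) : p.r (1 + f) = 1 + p.r f ↔ f ∈ p.V.1 := by
  refine ⟨fun h => by_contra fun h1 => ?_, fun h => by rw [Pl.r_add (one_mem _) h, Pl.r_one]⟩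
  have h2 : 1 + f ∉ p.V.1 := fun h2 => h1 (by simpa using sub_mem h2 (one_mem _))
  rw [show p.r f = 0 from dif_neg h1, show p.r (1 + f) = 0 from dif_neg h2, add_zero] at h
  exact zero_ne_one h

theorem locH (x : HH C K) : ∃ (s : Finset K)
    (Φ : ∀ (E : Type) [Field E] [Algebra ℂ E], (s → E) → HH C E),
    (∀ (E : Type) [Field E] [Algebra ℂ E] (p : Hb.LP K E), pbH C p x = Φ E fun f => p.r f) ∧
    ∀ (E E' : Type) [Field E] [Algebra ℂ E] [Field E'] [Algebra ℂ E'] (α : E →ₐ[ℂ] E')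
      (z : s → E), Φ E' (fun f => α (z f)) = pbH C (Hb.LP.hom α) (Φ E z) := by
  classical
  obtain ⟨I, a, rfl⟩ := exists_ev C x
  let t : Fin (I.P.N + 1) × Fin (I.P.N + 1) → K := fun q => I.K₀.val (I.P.y q.2 / I.P.y q.1)
  let s : Finset K := Finset.univ.image t ∪ Finset.univ.image fun q => 1 + t q
  let e₁ : Fin (I.P.N + 1) → Fin (I.P.N + 1) → s := fun i j =>
    ⟨t (i, j), Finset.mem_union_left _ (Finset.mem_image_of_mem _ (Finset.mem_univ _))⟩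
  let e₂ : Fin (I.P.N + 1) → Fin (I.P.N + 1) → s := fun i j =>
    ⟨1 + t (i, j), Finset.mem_union_right _ (Finset.mem_image_of_mem _ (Finset.mem_univ (i, j)))⟩
  refine ⟨s, fun E _ _ z => evC C (X := I.S) a
    (Classical.epsilon fun i => ∀ j, z (e₂ i j) = 1 + z (e₁ i j)) fun j =>
      z (e₁ (Classical.epsilon fun i => ∀ j, z (e₂ i j) = 1 + z (e₁ i j)) j),
    fun E _ _ p => ?_, fun E E' _ _ _ _ α z => ?_⟩
  · obtain ⟨i, hi⟩ := (I.w.red p).exists_chart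
    have h1 := Classical.epsilon_spec (p := fun i => ∀ j, p.r (e₂ i j) = 1 + p.r (e₁ i j))
      ⟨i, fun j => (mem_iff_r p _).2 (hi j).2⟩
    rw [pbH_ev]
    exact (evC_eq C a (w := I.w.red p) fun j =>
      ⟨⟨Algebra.mem_top, (mem_iff_r p _).1 (h1 j)⟩, rfl⟩).symm
  · have h1 : (fun i => ∀ j, α (z (e₂ i j)) = 1 + α (z (e₁ i j))) =
        fun i => ∀ j, z (e₂ i j) = 1 + z (e₁ i j) := funext fun i => propext
      (forall_congr' fun j => by
        rw [← map_one α, ← map_add]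
        exact α.injective.eq_iff)
    simp only [h1]
    exact evC_map C a _ _ α

end Crest.Agent.X262.Hb64
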