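import Crest.Agent.X262.Hb64.Lim
import Crest.Agent.X262.Coh.Basic

/-!
# Row 262, road B, Hb64 (helper64), part 3: the integral and the Hodge types

* `itgH C K`   : the integral on the limit; `itgH_gen`, `itgH_pb`, `pdH`, `ptH`;
* `exists_res`, `exists_gen` : the residue field of a point;
* `fubH`       : Fubini;
* `tyH C K p q`: Hodge types.
-/

set_option autoImplicit false
set_option linter.style.haveILetI false

noncomputable section

namespace Crest.Agent.X262.Hb64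

open Crest.Agent.X277 Crest.Agent.X277.Lef Crest.Agent.X277.AN.G1 Crest.Agent.X277.BD
  Crest.Agent.X277.BD.Br Crest.Agent.X262.Coh KP

variable {X Y : SV} {K E L : Type} [Field K] [Algebra ℂ K] [Field E] [Algebra ℂ E] [Field L]
  [Algebra ℂ L]

theorem deg_comp (α : K →ₐ[ℂ] E) (β : E →ₐ[ℂ] L) : deg (β.comp α) = deg α * deg β := by
  letI := α.toRingHom.toAlgebra
  letI := β.toRingHom.toAlgebra
  letI := (β.comp α).toRingHom.toAlgebra
  haveI : IsScalarTower K E L := IsScalarTower.of_algebraMap_eq fun _ => rfl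
  exact (Module.finrank_mul_finrank K E L).symm

variable (C : Coh.Th) [hC : Ok C]

theorem itg_hc_ne (X : SV) : C.itg X (C.hc X ^ X.dim) ≠ 0 := hC.man.itg_hc X ▸ X.dgr_ne

theorem itg_pb_hom {μ : Hom Y X} {α : X.F →ₐ[ℂ] Y.F} (h : μ.p = Plc.ofHom α) (a : C.H X) :
    C.itg Y (C.pb μ a) = deg α * C.itg X a := hC.pd.itg_pb_deg hC.man h a

/-- the integral -/
def itgH (K : Type) [Field K] [Algebra ℂ K] : HH C K →ₗ[ℂ] ℂ :=
  liftL C (fun i => (deg i.K₀.val : ℂ) • C.itg i.S) fun i j μ h a => by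
    obtain ⟨α, h1, h2⟩ := exists_hom_of_same h
    rw [LinearMap.smul_apply, LinearMap.smul_apply, itg_pb_hom C h1, ← h2, deg_comp]
    push_cast
    rw [smul_eq_mul, smul_eq_mul, mul_left_comm, mul_assoc]

theorem itgH_gen (β : X.F →ₐ[ℂ] K) (a : C.H X) :
    itgH C K (ev C (gen X β) a) = deg β * C.itg X a := by
  obtain ⟨i, μ, h⟩ := exists_ix (gen X β)
  obtain ⟨α, h1, h2⟩ := exists_hom_of_same h
  rw [ev_eq C h, itgH, liftL_ofI, LinearMap.smul_apply, itg_pb_hom C h1, ← h2, deg_comp]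
  push_cast
  rw [smul_eq_mul, mul_left_comm, mul_assoc]

theorem itgH_id (P : PModel ℂ K) (a : C.H (sv P)) :
    itgH C K (ev C (gen (sv P) (AlgHom.id ℂ K)) a) = C.itg (sv P) a := by
  rw [itgH_gen, deg_id, Nat.cast_one, one_mul]

theorem itgH_pb (α : K →ₐ[ℂ] E) (x : HH C K) :
    itgH C E (pbH C (Hb.LP.hom α) x) = deg α * itgH C K x := by
  obtain ⟨i, a, rfl⟩ := exists_ev C x
  rw [pbH_gen, itgH_gen, itgH_gen, deg_comp]
  push_cast
  rw [mul_left_comm, mul_assoc]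

theorem pdH [Algebra.EssFiniteType ℂ K] (x : HH C K) (h : ∀ y, itgH C K (x * y) = 0) : x = 0 := by
  obtain ⟨P, a, -, rfl⟩ := exists_ev_id C x ∅
  rw [(hC.pd _).2 a fun b => by rw [← itgH_id, map_mul, h], map_zero]

/-- the pull-back to the generic point is injective -/
theorem ev_id_injective (P : PModel ℂ K) :
    Function.Injective (ev C (gen (sv P) (AlgHom.id ℂ K))) :=
  (injective_iff_map_eq_zero _).2 fun a ha => (hC.pd _).2 a fun b => by
    rw [← itgH_id, map_mul, ha, zero_mul, map_zero]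

theorem dim_self : dim ℂ ℂ = 0 := by
  have h := trdeg_eq_dim (k := ℂ) (F := ℂ)
  rw [trdeg_eq_zero] at h
  exact_mod_cast h.symm

theorem ptH (x : HH C ℂ) : ∃ c : ℂ, x = algebraMap ℂ _ c := by
  obtain ⟨P, a, -, rfl⟩ := exists_ev_id C x ∅
  obtain ⟨c, rfl⟩ : ∃ c : ℂ, a = algebraMap ℂ _ c := by
    refine hC.man.ind (p := fun a => ∃ c : ℂ, a = algebraMap ℂ _ c) ⟨0, (map_zero _).symm⟩
      (fun k a ha => ?_) ?_ a
    · rcases Nat.eq_zero_or_pos k with rfl | hk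
      · exact hC.man.dg_zero _ a ha
      · rw [hC.man.dg_gt (sv P) (k := k) (dim_self.trans_lt hk), Submodule.mem_bot] at ha
        exact ⟨0, by rw [ha, map_zero]⟩
    · rintro _ _ ⟨c, rfl⟩ ⟨d, rfl⟩
      exact ⟨c + d, (map_add _ _ _).symm⟩
  exact ⟨c, AlgHom.commutes _ c⟩

/-! ### the residue field of a point -/

omit hC in
theorem exists_ind (s : Finset K) :
    ∃ t : Fin (dim ℂ (IntermediateField.adjoin ℂ (s : Set K))) → K,
      (∀ i, t i ∈ s) ∧ AlgebraicIndependent ℂ t := by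
  have := eft_adjoin s
  set K₀ := IntermediateField.adjoin ℂ (s : Set K)
  have h0 : IntermediateField.adjoin ℂ (Subtype.val ⁻¹' (s : Set K) : Set K₀) = ⊤ := by
    refine IntermediateField.map_injective K₀.val ?_
    rw [IntermediateField.adjoin_map, ← AlgHom.fieldRange_eq_map, IntermediateField.fieldRange_val]
    exact congrArg _ (Set.image_preimage_eq_of_subset fun x hx =>
      ⟨⟨x, IntermediateField.subset_adjoin _ _ hx⟩, rfl⟩)
  have h1 : Algebra.IsAlgebraic (Algebra.adjoin ℂ (Subtype.val ⁻¹' (s : Set K) : Set K₀)) K₀ := by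
    rw [← IntermediateField.isAlgebraic_adjoin_iff_top, h0]
    infer_instance
  obtain ⟨t, h2, h3⟩ := exists_isTranscendenceBasis_subset (R := ℂ)
    (Subtype.val ⁻¹' (s : Set K) : Set K₀)
  have h4 := h3.cardinalMk_eq_trdeg
  rw [trdeg_eq_dim] at h4
  obtain ⟨e⟩ := Cardinal.mk_eq_nat_iff.1 h4
  exact ⟨fun i => ((e.symm i : K₀) : K), fun i => h2 (e.symm i).2,
    (h3.1.comp _ e.symm.injective).map' (f := K₀.val) K₀.val.injective⟩

omit hC in
/-- the residue field of a point -/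
theorem exists_res (w : KP X K) : ∃ (K₀ : IntermediateField ℂ K) (w₀ : KP X K₀) (x : X.Pt)
    (t : Fin (dim ℂ K₀) → X.F), Algebra.EssFiniteType ℂ K₀ ∧
    (w₀.red (Hb.LP.hom K₀.val)).Same w ∧ (lp x).O ≤ w.p.O ∧ (∀ i, t i ∈ (lp x).O) ∧
    (AlgebraicIndependent ℂ fun i => w.p.π (t i)) ∧
    ∀ K₁ : IntermediateField ℂ K, (∀ f ∈ (lp x).O, w.p.π f ∈ K₁) → K₀ ≤ K₁ := by
  classical
  obtain ⟨x, hx⟩ := w.pt
  obtain ⟨i, hi⟩ := exists_pat x
  let s : Finset K := Finset.univ.image fun j => w.p.π (X.P.y j / X.P.y i)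
  obtain ⟨w₀, h⟩ := exists_desc w (fun j => hx (y_mem hi j))
    (IntermediateField.adjoin ℂ (s : Set K))
    fun j => IntermediateField.subset_adjoin _ _ (by simp [s])
  obtain ⟨t, h1, h2⟩ := exists_ind s
  choose j hj using fun l => Finset.mem_image.1 (h1 l)
  refine ⟨_, w₀, x, fun l => X.P.y (j l) / X.P.y i, eft_adjoin _, h, hx, fun l => y_mem hi _,
    by rwa [funext fun l => (hj l).2], fun K₁ h3 => IntermediateField.adjoin_le_iff.2 ?_⟩
  intro z hz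
  obtain ⟨l, -, rfl⟩ := Finset.mem_image.1 hz
  exact h3 _ (y_mem hi l)

omit hC in
/-- a point with a residue field of full dimension is generic -/
theorem exists_gen (w : KP X K) {x : X.Pt} (hx : (lp x).O ≤ w.p.O) {t : Fin X.dim → X.F}
    (ht : ∀ i, t i ∈ (lp x).O) (h : AlgebraicIndependent ℂ fun i => w.p.π (t i)) :
    ∃ γ : X.F →ₐ[ℂ] K, w = gen X γ := by
  have key : ∀ f : w.p.O, f ≠ 0 → w.p.hom f ≠ 0 := fun f h0 h1 => by
    let t' : Fin X.dim → w.p.O := fun i => ⟨t i, hx (ht i)⟩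
    have h2 : AlgebraicIndependent ℂ (w.p.hom ∘ t') := h
    have h3 : Transcendental (Algebra.adjoin ℂ (Set.range t')) f := fun h3 => by
      obtain ⟨⟨r, hr⟩, h4, c, h5⟩ := h3.exists_nonzero_dvd (mem_nonZeroDivisors_of_ne_zero h0)
      rw [Algebra.adjoin_range_eq_range_aeval] at hr
      obtain ⟨q, rfl⟩ := hr
      have h6 : w.p.hom (MvPolynomial.aeval t' q) = 0 := by
        rw [show MvPolynomial.aeval t' q = f * c from h5, map_mul, h1, zero_mul]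
      rw [← AlgHom.comp_apply, MvPolynomial.comp_aeval] at h6
      have h7 := algebraicIndependent_iff.1 h2 q h6
      exact h4 (Subtype.ext (by simp [h7]))
    have h4 := ((AlgebraicIndependent.option_iff (x := t') (a := f)).2 ⟨h2.of_comp, h3⟩).map'
      (f := w.p.O.val) Subtype.val_injective
    have h5 := h4.cardinalMk_le_trdeg
    rw [trdeg_eq_dim, Cardinal.mk_fintype, Fintype.card_option, Fintype.card_fin,
      Nat.cast_le] at h5
    exact Nat.not_succ_le_self _ h5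
  obtain ⟨i, hi⟩ := exists_pat x
  obtain ⟨γ, hγ⟩ := exists_ofHom (p := w.p) fun f => by
    obtain ⟨a, ha, c, hc, h0, rfl⟩ := X.P.frac' i f
    exact Plc.div_mem (hx (A_le hi ha))
      (key ⟨c, hx (A_le hi hc)⟩ fun h1 => h0 (congrArg Subtype.val h1))
  exact ⟨γ, KP.ext hγ⟩

/-- a point whose residue field has smaller dimension has no period -/
theorem itgH_eq_zero [Algebra.EssFiniteType ℂ K] {K₀ : IntermediateField ℂ K}
    [Algebra.EssFiniteType ℂ K₀] {w₀ : KP X K₀} {w : KP X K}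
    (h : (w₀.red (Hb.LP.hom K₀.val)).Same w) (hd : dim ℂ K ≠ dim ℂ K₀) (a : C.H X) :
    itgH C K (ev C w a) = 0 := by
  rw [← ev_same C h, ← pbH_ev, itgH_pb, Nat.eq_zero_of_not_pos (mt (deg_pos_iff _).1 hd),
    Nat.cast_zero, zero_mul]

/-! ### Fubini -/

omit hC in
theorem mem_of_same {K₀ : IntermediateField ℂ K} {w₀ : KP X K₀} {γ : X.F →ₐ[ℂ] K}
    (h : (w₀.red (Hb.LP.hom K₀.val)).Same (gen X γ)) (f : X.F) : γ f ∈ K₀ := by
  obtain ⟨x, h1, -, h3⟩ := h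
  obtain ⟨i, hi⟩ := exists_pat x
  have key : ∀ a ∈ X.P.A i, γ a ∈ K₀ := fun a ha => by
    have h4 := h3 a (A_le hi ha)
    rw [red_hom_p] at h4
    exact (show ((w₀.p.π a : K₀) : K) = γ a from h4) ▸ (w₀.p.π a).2
  obtain ⟨a, ha, c, hc, -, rfl⟩ := X.P.frac' i f
  rw [map_div₀]
  exact div_mem (key a ha) (key c hc)

include hC in
theorem dim_prod (X Y : SV) : (X.prod Y).dim = X.dim + Y.dim := by
  by_contra h
  refine mul_ne_zero (itg_hc_ne C X) (itg_hc_ne C Y) ?_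
  rw [← hC.fub]
  exact hC.man.itg_dg _ (Ne.symm h) _ (hC.man.dg_mul _ (hC.man.pb_dg _ _ (hC.man.hc_pow X _))
    (hC.man.pb_dg _ _ (hC.man.hc_pow Y _)))

include hC in
theorem exists_prd [Algebra.EssFiniteType ℂ L] {α₁ : X.F →ₐ[ℂ] L} {α₂ : Y.F →ₐ[ℂ] L}
    (h : Hb.Prd α₁ α₂) : ∃ γ : (X.prod Y).F →ₐ[ℂ] L, Function.Surjective γ ∧
      (gen X α₁).pair (gen Y α₂) = gen (X.prod Y) γ := by
  obtain ⟨K₀, w₀, x, t, h1, h2, h3, h4, h5, h6⟩ := exists_res ((gen X α₁).pair (gen Y α₂))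
  have h7 : K₀ = ⊤ := by
    rw [eq_top_iff, ← h.2, sup_le_iff]
    constructor
    · rintro _ ⟨f, rfl⟩
      refine mem_of_same (w₀ := w₀.map (fst X Y)) ?_ f
      rw [red_map]
      exact (h2.map _).trans (pair_fst _ _)
    · rintro _ ⟨f, rfl⟩
      refine mem_of_same (w₀ := w₀.map (snd X Y)) ?_ f
      rw [red_map]
      exact (h2.map _).trans (pair_snd _ _)
  have h8 : dim ℂ L = dim ℂ K₀ := (deg_pos_iff K₀.val).1 (by
    rw [deg_of_surj fun z => ⟨⟨z, h7 ▸ IntermediateField.mem_top⟩, rfl⟩]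
    exact one_pos)
  have h9 : (X.prod Y).dim = dim ℂ K₀ := by
    rw [← h8, h.1]
    exact dim_prod C X Y
  obtain ⟨γ, hγ⟩ := exists_gen _ h3 (t := fun i => t (Fin.cast h9 i)) (fun i => h4 _)
    (h5.comp _ (Fin.cast_injective h9))
  refine ⟨γ, fun z => ?_, hγ⟩
  refine h6 γ.fieldRange (fun f _ => ?_) (h7 ▸ IntermediateField.mem_top)
  rw [hγ]
  exact ⟨f, rfl⟩

theorem fubH [Algebra.EssFiniteType ℂ K] [Algebra.EssFiniteType ℂ E] [Algebra.EssFiniteType ℂ L]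
    (α₁ : K →ₐ[ℂ] L) (α₂ : E →ₐ[ℂ] L) (h : Hb.Prd α₁ α₂) (x : HH C K) (y : HH C E) :
    itgH C L (pbH C (Hb.LP.hom α₁) x * pbH C (Hb.LP.hom α₂) y) = itgH C K x * itgH C E y := by
  obtain ⟨P, a, -, rfl⟩ := exists_ev_id C x ∅
  obtain ⟨Q, b, -, rfl⟩ := exists_ev_id C y ∅
  obtain ⟨γ, h1, h2⟩ := exists_prd C (X := sv P) (Y := sv Q) h
  rw [pbH_gen, pbH_gen, itgH_id, itgH_id, AlgHom.comp_id, AlgHom.comp_id,
    ev_of_same C (pair_fst (gen (sv P) α₁) (gen (sv Q) α₂)),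
    ev_of_same C (pair_snd (gen (sv P) α₁) (gen (sv Q) α₂)), ← map_mul, h2, itgH_gen,
    deg_of_surj h1, Nat.cast_one, one_mul]
  exact hC.fub _ _ a b

theorem itgH_one : itgH C ℂ 1 = 1 := by
  obtain ⟨P⟩ := Unf.nonempty_pmodel (F := ℂ)
  have h1 := itg_hc_ne C (sv P)
  rw [show (sv P).dim = 0 from dim_self, pow_zero, ← itgH_id, map_one] at h1
  have h2 := fubH C (AlgHom.id ℂ ℂ) (AlgHom.id ℂ ℂ) ⟨by rw [dim_self], eq_top_iff.2 fun z _ =>
    le_sup_left (a := (AlgHom.id ℂ ℂ).fieldRange) ⟨z, rfl⟩⟩ 1 1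
  rw [map_one, mul_one] at h2
  exact (mul_eq_left₀ h1).1 h2.symm

/-! ### Hodge types -/

theorem exists_typ₂ {p q p' q' : ℕ} {w : KP X K} {w' : KP Y K} {a : C.H X} {b : C.H Y}
    (ha : a ∈ C.typ X p q) (hb : b ∈ C.typ Y p' q') : ∃ (i : Ix K) (a' b' : C.H i.S),
    a' ∈ C.typ i.S p q ∧ b' ∈ C.typ i.S p' q' ∧ ev C w a = ev C i.w a' ∧
      ev C w' b = ev C i.w b' := by
  obtain ⟨i, μ, ν, h1, h2⟩ := exists_ix₂ w w'
  exact ⟨i, _, _, hC.typ.pb μ a ha, hC.typ.pb ν b hb, ev_of_same C h1 a, ev_of_same C h2 b⟩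

/-- the classes of type `(p, q)` -/
def tyH (K : Type) [Field K] [Algebra ℂ K] (p q : ℕ) : Submodule ℂ (HH C K) where
  carrier := {x | ∃ (X : SV) (w : KP X K) (a : C.H X), a ∈ C.typ X p q ∧ x = ev C w a}
  zero_mem' := ⟨_, (Classical.arbitrary (Ix K)).w, 0, zero_mem _, (map_zero _).symm⟩
  add_mem' := by
    rintro _ _ ⟨X, w, a, ha, rfl⟩ ⟨Y, w', b, hb, rfl⟩
    obtain ⟨i, a', b', h1, h2, h3, h4⟩ := exists_typ₂ C (w := w) (w' := w') ha hb
    exact ⟨_, i.w, a' + b', add_mem h1 h2, by rw [h3, h4, map_add]⟩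
  smul_mem' := by
    rintro c _ ⟨X, w, a, ha, rfl⟩
    exact ⟨X, w, c • a, Submodule.smul_mem _ c ha, (map_smul _ _ _).symm⟩

variable {p q p' q' : ℕ}

theorem ev_mem_tyH (w : KP X K) {a : C.H X} (ha : a ∈ C.typ X p q) : ev C w a ∈ tyH C K p q :=
  ⟨X, w, a, ha, rfl⟩

theorem tyH_mul {x y : HH C K} (hx : x ∈ tyH C K p q) (hy : y ∈ tyH C K p' q') :
    x * y ∈ tyH C K (p + p') (q + q') := by
  obtain ⟨X, w, a, ha, rfl⟩ := hx
  obtain ⟨Y, w', b, hb, rfl⟩ := hy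
  obtain ⟨i, a', b', h1, h2, h3, h4⟩ := exists_typ₂ C (w := w) (w' := w') ha hb
  rw [h3, h4, ← map_mul]
  exact ev_mem_tyH C _ (hC.typ.mul _ h1 h2)

theorem tyH_pb (π : Hb.LP K E) {x : HH C K} (hx : x ∈ tyH C K p q) :
    pbH C π x ∈ tyH C E p q := by
  obtain ⟨X, w, a, ha, rfl⟩ := hx
  rw [pbH_ev]
  exact ev_mem_tyH C _ ha

theorem typ_gt {a : C.H X} (ha : a ∈ C.typ X p q) (h : X.dim < p ∨ X.dim < q) : a = 0 := by
  rcases h with h | h
  · rwa [hC.typ.gt X q h, Submodule.mem_bot] at ha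
  · have h1 := hC.typ.cj X a ha
    rw [hC.typ.gt X p h, Submodule.mem_bot] at h1
    rw [← hC.man.cj_cj X a, h1, map_zero]

theorem one_mem_typ (X : SV) : (1 : C.H X) ∈ C.typ X 0 0 := by
  have h1 : (⊤ : Submodule ℂ (C.H X)) ≤ C.typ X 0 0 ⊔ ⨆ (k) (_ : k ≠ 0), C.dg X k := by
    rw [← (hC.typ.int X).submodule_iSup_eq_top]
    refine iSup_le fun ⟨p, q⟩ => ?_
    rcases Nat.even_or_odd (p + q) with ⟨k, hk⟩ | hk
    · by_cases h0 : k = 0
      · obtain ⟨rfl, rfl⟩ : p = 0 ∧ q = 0 := by omega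
        exact le_sup_left
      · exact (hC.typ.le X (k := k) (by omega)).trans
          ((le_iSup₂ (f := fun k (_ : k ≠ 0) => C.dg X k) k h0).trans le_sup_right)
    · exact (hC.typ.odd X hk).trans_le bot_le
  obtain ⟨x, hx, y, hy, h2⟩ := Submodule.mem_sup.1 (h1 (Submodule.mem_top (x := 1)))
  have h3 : y ∈ C.dg X 0 := eq_sub_of_add_eq' h2 ▸
    sub_mem (hC.man.dg_one X) (hC.typ.le X (k := 0) rfl hx)
  have h4 := Submodule.disjoint_def.1 ((hC.man.dg_int X).submodule_iSupIndep 0) y h3 hy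
  rwa [← h2, h4, add_zero]

theorem tyH_one : (1 : HH C K) ∈ tyH C K 0 0 :=
  ⟨_, (Classical.arbitrary (Ix K)).w, 1, one_mem_typ C _, (map_one _).symm⟩

theorem exists_typ_id [Algebra.EssFiniteType ℂ K] {x : HH C K} (hx : x ∈ tyH C K p q) :
    ∃ (P : PModel ℂ K) (a : C.H (sv P)), a ∈ C.typ (sv P) p q ∧
      x = ev C (gen (sv P) (AlgHom.id ℂ K)) a := by
  obtain ⟨X, w, a, ha, rfl⟩ := hx
  obtain ⟨P, μ, -, h⟩ := exists_mor w ∅
  exact ⟨P, _, hC.typ.pb μ a ha, ev_of_same C (.of_eq h) a⟩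

theorem tyH_zero [Algebra.EssFiniteType ℂ K] {x : HH C K} (hx : x ∈ tyH C K p q)
    (h : dim ℂ K < p ∨ dim ℂ K < q) : x = 0 := by
  obtain ⟨P, a, ha, rfl⟩ := exists_typ_id C hx
  rw [typ_gt C ha h, map_zero]

theorem tyH_itg [Algebra.EssFiniteType ℂ K] {x : HH C K} (hx : x ∈ tyH C K p q)
    (h : p ≠ dim ℂ K ∨ q ≠ dim ℂ K) : itgH C K x = 0 := by
  by_cases h1 : dim ℂ K < p ∨ dim ℂ K < q
  · rw [tyH_zero C hx h1, map_zero]
  obtain ⟨P, a, ha, rfl⟩ := exists_typ_id C hx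
  rw [itgH_id]
  rcases Nat.even_or_odd (p + q) with ⟨k, hk⟩ | hk
  · exact hC.man.itg_dg (sv P) (k := k) (by change k ≠ dim ℂ K; omega) a
      (hC.typ.le _ (by omega) ha)
  · rw [hC.typ.odd _ hk, Submodule.mem_bot] at ha
    rw [ha, map_zero]

end Crest.Agent.X262.Hb64
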