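import Crest.Agent.X262.Hb64.Pt

/-!
# Row 262, road B, Hb64 (helper64), part 2: the limit ring

* `Ok C`     : the part of `Coh.Th.Ax` which is used;
* `HH C K`   : the direct limit of the cohomology rings of the models of the subfields of `K`;
* `ev C w`   : the pull-back along a `K`-valued point; `ev_same`, `ev_map`, `exists_ev`;
* `pbH C p`  : the pull-back along a place; `pbH_ev`.
-/

set_option autoImplicit false

noncomputable section

namespace Crest.Agent.X262.Hb64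

open Crest.Agent.X277 Crest.Agent.X277.Lef Crest.Agent.X277.AN.G1 Crest.Agent.X277.BD
  Crest.Agent.X277.BD.Br Crest.Agent.X262.Coh KP

/-- the axioms which are used -/
class Ok (C : Coh.Th) : Prop where
  man : C.MAN
  pd : C.PD
  fub : C.FUB
  pl0 : C.PL0
  typ : C.TYP

theorem Ok.of_ax {C : Coh.Th} (h : C.Ax) : Ok C := ⟨h.man, h.pd, h.fub, h.pl0, h.typ⟩

/-- a model of a subfield -/
structure Ix (K : Type) [Field K] [Algebra ℂ K] where
  /-- the subfield -/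
  K₀ : IntermediateField ℂ K
  /-- the model -/
  P : PModel ℂ K₀

variable {X Y : SV} {K E L : Type} [Field K] [Algebra ℂ K] [Field E] [Algebra ℂ E] [Field L]
  [Algebra ℂ L]

/-- the variety -/
abbrev Ix.S (i : Ix K) : SV := sv i.P

/-- the generic point -/
abbrev Ix.w (i : Ix K) : KP i.S K := gen i.S i.K₀.val

instance : Preorder (Ix K) where
  le i j := ∃ μ : Hom j.S i.S, (j.w.map μ).Same i.w
  le_refl _ := ⟨idH _, .of_eq (map_id _)⟩
  le_trans _ _ _ := fun ⟨μ, h⟩ ⟨ν, h'⟩ =>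
    ⟨Mor.comp μ ν, by rw [map_comp]; exact (h'.map μ).trans h⟩

theorem Ix.le_def {i j : Ix K} : i ≤ j ↔ ∃ μ : Hom j.S i.S, (j.w.map μ).Same i.w := Iff.rfl

theorem exists_ix (w : KP X K) : ∃ (i : Ix K) (μ : Hom i.S X), (i.w.map μ).Same w := by
  obtain ⟨K₀, w₀, h1, h2⟩ := exists_fg w
  obtain ⟨P, μ, -, h3⟩ := exists_mor w₀ ∅
  refine ⟨⟨K₀, P⟩, μ, ?_⟩
  rw [← h3, red_map, gen_red] at h2
  exact h2

theorem exists_ix₂ (w : KP X K) (w' : KP Y K) : ∃ (i : Ix K) (μ : Hom i.S X) (ν : Hom i.S Y),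
    (i.w.map μ).Same w ∧ (i.w.map ν).Same w' := by
  obtain ⟨i, μ, h⟩ := exists_ix (w.pair w')
  refine ⟨i, Mor.comp (fst X Y) μ, Mor.comp (snd X Y) μ, ?_, ?_⟩ <;> rw [map_comp]
  · exact (h.map _).trans (pair_fst w w')
  · exact (h.map _).trans (pair_snd w w')

instance : IsDirectedOrder (Ix K) := ⟨fun i j => by
  obtain ⟨k, μ, ν, h1, h2⟩ := exists_ix₂ i.w j.w
  exact ⟨k, ⟨μ, h1⟩, ⟨ν, h2⟩⟩⟩

instance : Nonempty (Ix K) := by
  have := eft_adjoin (K := K) ∅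
  obtain ⟨P⟩ := Unf.nonempty_pmodel (F := IntermediateField.adjoin ℂ ((∅ : Finset K) : Set K))
  exact ⟨⟨_, P⟩⟩

variable (C : Coh.Th) [hC : Ok C]

theorem pb_eq_of_same {μ ν : Hom Y X} {α : Y.F →ₐ[ℂ] K}
    (h : ((gen Y α).map μ).Same ((gen Y α).map ν)) : C.pb μ = C.pb ν :=
  hC.man.pb_congr μ ν (map_eq_of_same h)

/-- the transition maps -/
def tr (i j : Ix K) (h : i ≤ j) : C.H i.S →ₐ[ℂ] C.H j.S := C.pb (Ix.le_def.1 h).choose

theorem tr_eq {i j : Ix K} (h : i ≤ j) {μ : Hom j.S i.S} (hμ : (j.w.map μ).Same i.w) :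
    tr C i j h = C.pb μ :=
  pb_eq_of_same C ((Ix.le_def.1 h).choose_spec.trans hμ.symm)

instance : DirectedSystem (fun i : Ix K => C.H i.S) (tr C · · ·) where
  map_self i x := by
    rw [tr_eq C le_rfl (.of_eq (map_id _))]
    exact hC.man.pb_id _ x
  map_map := fun _ _ _ ⟨μ, h⟩ ⟨ν, h'⟩ x => by
    rw [tr_eq C _ h, tr_eq C _ h', ← hC.man.pb_comp, tr_eq C _ (μ := Mor.comp μ ν)]
    rw [map_comp]
    exact (h'.map μ).trans h

/-- the limit ring -/
def HH (K : Type) [Field K] [Algebra ℂ K] : Type := DirectLimit (fun i : Ix K => C.H i.S) (tr C)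

instance : CommRing (HH C K) :=
  inferInstanceAs (CommRing (DirectLimit (fun i : Ix K => C.H i.S) (tr C)))

instance : Algebra ℂ (HH C K) :=
  inferInstanceAs (Algebra ℂ (DirectLimit (fun i : Ix K => C.H i.S) (tr C)))

/-- the structure maps -/
def ofI (i : Ix K) : C.H i.S →ₐ[ℂ] HH C K :=
  DirectLimit.Algebra.of (fun i : Ix K => C.H i.S) (tr C) i

theorem ofI_pb {i j : Ix K} {μ : Hom j.S i.S} (h : (j.w.map μ).Same i.w) (a : C.H i.S) :
    ofI C j (C.pb μ a) = ofI C i a := by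
  rw [← tr_eq C ⟨μ, h⟩ h]
  exact DirectLimit.Algebra.of_f (G := fun i : Ix K => C.H i.S) (f := tr C) _ a

theorem exists_ofI (x : HH C K) : ∃ i a, x = ofI C i a := DirectLimit.exists_eq_mk (tr C) x

theorem ofI_congr {i j : Ix K} {μ : Hom i.S X} {ν : Hom j.S X}
    (h : (i.w.map μ).Same (j.w.map ν)) (a : C.H X) : ofI C i (C.pb μ a) = ofI C j (C.pb ν a) := by
  obtain ⟨k, α, β, h1, h2⟩ := exists_ix₂ i.w j.w
  rw [← ofI_pb C h1, ← ofI_pb C h2, ← hC.man.pb_comp, ← hC.man.pb_comp,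
    pb_eq_of_same C (α := k.K₀.val) (μ := Mor.comp μ α) (ν := Mor.comp ν β)]
  rw [map_comp, map_comp]
  exact ((h1.map μ).trans h).trans (h2.map ν).symm

/-- the pull-back along a field valued point -/
def ev (w : KP X K) : C.H X →ₐ[ℂ] HH C K :=
  (ofI C (exists_ix w).choose).comp (C.pb (exists_ix w).choose_spec.choose)

theorem ev_eq {w : KP X K} {i : Ix K} {μ : Hom i.S X} (h : (i.w.map μ).Same w) (a : C.H X) :
    ev C w a = ofI C i (C.pb μ a) :=
  ofI_congr C ((exists_ix w).choose_spec.choose_spec.trans h.symm) a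

theorem ev_same {w w' : KP X K} (h : w.Same w') (a : C.H X) : ev C w a = ev C w' a := by
  obtain ⟨i, μ, h1⟩ := exists_ix w
  rw [ev_eq C h1, ev_eq C (h1.trans h)]

theorem ev_map (w : KP Y K) (μ : Hom Y X) (a : C.H X) :
    ev C (w.map μ) a = ev C w (C.pb μ a) := by
  obtain ⟨i, ν, h⟩ := exists_ix w
  rw [ev_eq C h, ← hC.man.pb_comp, ev_eq C (μ := Mor.comp μ ν)]
  rw [map_comp]
  exact h.map μ

theorem ev_of_same {w : KP Y K} {μ : Hom Y X} {w' : KP X K} (h : (w.map μ).Same w') (a : C.H X) :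
    ev C w' a = ev C w (C.pb μ a) := by rw [← ev_map, ev_same C h]

theorem ev_w (i : Ix K) (a : C.H i.S) : ev C i.w a = ofI C i a := by
  rw [ev_eq C (μ := idH _) (.of_eq (map_id _)), hC.man.pb_id]

theorem exists_ev (x : HH C K) : ∃ (i : Ix K) (a : C.H i.S), x = ev C i.w a := by
  obtain ⟨i, a, rfl⟩ := exists_ofI C x
  exact ⟨i, a, (ev_w C i a).symm⟩

/-- two classes with the same pull-back agree on a model -/
theorem exact_ofI {i : Ix K} {a : C.H i.S} (h : ofI C i a = 0) :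
    ∃ (j : Ix K) (μ : Hom j.S i.S), (j.w.map μ).Same i.w ∧ C.pb μ a = 0 := by
  rw [← map_zero (ofI C i)] at h
  obtain ⟨j, ⟨μ, h1⟩, h2, h3⟩ := Quotient.exact h
  refine ⟨j, μ, h1, ?_⟩
  rw [← tr_eq C ⟨μ, h1⟩ h1]
  exact h3.trans (map_zero _)

/-- for a function field every class lives on a model of the field -/
theorem exists_ev_id [Algebra.EssFiniteType ℂ K] (x : HH C K) (T : Finset (BD ℂ K)) :
    ∃ (P : PModel ℂ K) (a : C.H (sv P)), (∀ b ∈ T, b ∈ On P) ∧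
      x = ev C (gen (sv P) (AlgHom.id ℂ K)) a := by
  obtain ⟨i, a, rfl⟩ := exists_ev C x
  obtain ⟨P, μ, h1, h2⟩ := exists_mor i.w T
  exact ⟨P, C.pb μ a, h1, by rw [← ev_map, h2]⟩

/-- a compatible family of algebra maps -/
def liftA {A : Type} [CommRing A] [Algebra ℂ A] (g : ∀ i : Ix K, C.H i.S →ₐ[ℂ] A)
    (h : ∀ (i j : Ix K) (μ : Hom j.S i.S), (j.w.map μ).Same i.w → ∀ a, g j (C.pb μ a) = g i a) :
    HH C K →ₐ[ℂ] A :=
  DirectLimit.Algebra.lift (fun i : Ix K => C.H i.S) (tr C) A g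
    fun i j hij => h i j _ (Ix.le_def.1 hij).choose_spec

/-- a compatible family of linear maps -/
def liftL (g : ∀ i : Ix K, C.H i.S →ₗ[ℂ] ℂ)
    (h : ∀ (i j : Ix K) (μ : Hom j.S i.S), (j.w.map μ).Same i.w → ∀ a, g j (C.pb μ a) = g i a) :
    HH C K →ₗ[ℂ] ℂ :=
  DirectLimit.Module.lift ℂ (Ix K) (fun i : Ix K => C.H i.S) (tr C) g
    fun i j hij => h i j _ (Ix.le_def.1 hij).choose_spec

theorem liftL_ofI (g : ∀ i : Ix K, C.H i.S →ₗ[ℂ] ℂ)
    (h : ∀ (i j : Ix K) (μ : Hom j.S i.S), (j.w.map μ).Same i.w → ∀ a, g j (C.pb μ a) = g i a)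
    (i : Ix K) (a : C.H i.S) : liftL C g h (ofI C i a) = g i a := rfl

/-- the pull-back along a place -/
def pbH (p : Hb.LP K E) : HH C K →ₐ[ℂ] HH C E :=
  liftA C (fun i => ev C (i.w.red p)) fun i j μ h a => by
    rw [← ev_map, ← red_map, ev_same C (h.red p)]

theorem pbH_ofI (p : Hb.LP K E) (i : Ix K) (a : C.H i.S) :
    pbH C p (ofI C i a) = ev C (i.w.red p) a := rfl

theorem pbH_ev (p : Hb.LP K E) (w : KP X K) (a : C.H X) :
    pbH C p (ev C w a) = ev C (w.red p) a := by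
  obtain ⟨i, μ, h⟩ := exists_ix w
  rw [ev_eq C h, pbH_ofI, ← ev_map, ← red_map, ev_same C (h.red p)]

theorem pbH_gen (β : K →ₐ[ℂ] E) (α : X.F →ₐ[ℂ] K) (a : C.H X) :
    pbH C (Hb.LP.hom β) (ev C (gen X α) a) = ev C (gen X (β.comp α)) a := by
  rw [pbH_ev, gen_red]

theorem pbH_comp (p : Hb.LP K E) (q : Hb.LP E L) (x : HH C K) :
    pbH C (p.comp q) x = pbH C q (pbH C p x) := by
  obtain ⟨i, a, rfl⟩ := exists_ev C x
  rw [pbH_ev, pbH_ev, pbH_ev, red_comp]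

theorem pbH_id (x : HH C K) : pbH C (Hb.LP.hom (AlgHom.id ℂ K)) x = x := by
  obtain ⟨i, a, rfl⟩ := exists_ev C x
  rw [pbH_ev, red_id]

end Crest.Agent.X262.Hb64
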