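import Crest.Agent.X262.Hb64.C1
import Crest.Agent.X262.Geo.Dv

/-!
# Row 262, road B, Hb64 (helper64), part 5: the cycle formula and the theory

* `exists_dv` : a boundary component of a log resolution is a smooth divisor;
* `cycH`      : the cycle formula;
* `th C`, `th_ax C : (th C).Ax`.
-/

set_option autoImplicit false

noncomputable section

namespace Crest.Agent.X262.Hb64

open Crest.Agent.X277 Crest.Agent.X277.Lef Crest.Agent.X277.AN.G1 Crest.Agent.X277.BD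
  Crest.Agent.X277.BD.Br Crest.Agent.X262.Coh KP
open Crest.Agent.X277.Pst (Dvs Prm)
open Crest.Agent.X277.BD.Cyc (Rf)
open Crest.Agent.X277.Neg (nv)
open Crest.Agent.X277.Res.Log (Bd LogRes)
open Crest.Agent.X262.Geo (od dv sp)

variable {K : Type} [Field K] [Algebra ℂ K] {P : PModel ℂ K} {n : ℕ} {V : RZ ℂ K}

/-- the generic point of the centre of `V` -/
abbrev cen (P : PModel ℂ K) (V : RZ ℂ K) : KP (sv P) (Rf V) :=
  (gen (sv P) (AlgHom.id ℂ K)).red (Hb.LP.at V)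

theorem cen_p : (cen P V).p = plc (Hb.LP.at V) := comp_id _

theorem pl_bd (B : Bd P n) (hV : Prm (oP P) V) {e : B.ι} (he : B.v e = nv V) :
    Strat.Fac.Pl B (plc (Hb.LP.at V)) (n - 1) := by
  classical
  have := Geo.eft P
  have h0 : ∀ f, f ∈ (plc (Hb.LP.at V)).O ↔ B.v e f ≤ 1 := fun f =>
    he ▸ (Geo.nv_le_one hV.dvs).symm
  have h1 : ∀ f, B.v e f ≤ 1 → ((plc (Hb.LP.at V)).π f = 0 ↔ B.v e f < 1) := fun f hf =>
    (Pl.r_eq_zero ((h0 f).2 hf)).trans (he ▸ (Geo.nv_lt_one hV.dvs).symm)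
  have h2 : ∀ x : Pts P, (lp x).O ≤ (plc (Hb.LP.at V)).O → Res.Log.On (B.v e) x :=
    fun x hx f hf => (h0 f).1 (hx hf)
  obtain ⟨x₀, hx₀⟩ := B.ne e
  have h3 : ∀ e', Strat.Fac.In B (plc (Hb.LP.at V)) e' ↔ e' = e := fun e' => by
    refine ⟨fun h => by_contra fun h4 => ?_, fun h f hf => h ▸ (h0 f).1 hf⟩
    have h5 := h.on fun f hf => (h0 f).2 (hx₀ f hf)
    have h6 := h (B.τ e' x₀)⁻¹ ((h0 _).2 (by rw [map_inv₀, Bd.v_τ_ne hx₀ (Ne.symm h4), inv_one]))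
    rw [map_inv₀, inv_le_one₀ (Link.v_pos (B.τ_ne e' x₀))] at h6
    exact (Bd.v_τ_lt h5).not_ge h6
  refine ⟨fun z => ?_, ⟨x₀, fun f hf => (h0 f).2 (hx₀ f hf)⟩, ?_, fun x hx f hf => ?_,
    fun x hx f hf h => ?_⟩
  · obtain ⟨f, rfl⟩ := Cyc.surj_plV V z
    exact ⟨f, f.2, Pl.r_coe _ f⟩
  · obtain ⟨t, σ, -⟩ := B.snc x₀
    have h4 := (σ ⟨e, hx₀⟩).pos
    have h5 : Nat.card {e' // Strat.Fac.In B (plc (Hb.LP.at V)) e'} = 1 := by
      simp only [h3, Nat.card_unique]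
    omega
  · obtain ⟨c, h4, h5, h6⟩ := (Link.bd_eqn B (h2 x hx)).loc.den f ((h0 f).1 hf)
    exact ⟨c * f, h6, c, h4, fun h7 => ((h1 c h5.le).1 h7).ne h5, mul_comm _ _⟩
  · refine ⟨Pi.single e (f / B.τ e x), fun e' => ?_, fun e' h4 => ?_, ?_⟩
    · by_cases h4 : e' = e
      · rw [h4, Pi.single_eq_same]
        exact Bd.div_mem (h2 x hx) hf ((h1 f (h2 x hx f hf)).1 h)
      · rw [Pi.single_eq_of_ne h4]
        exact zero_mem _
    · exact Pi.single_eq_of_ne (fun h5 => h4 ((h3 e').2 h5)) _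
    · rw [Finset.sum_eq_single e (fun e' _ h4 => by rw [Pi.single_eq_of_ne h4, zero_mul])
        (by simp), Pi.single_eq_same, div_mul_cancel₀ _ (B.τ_ne e x)]

/-- a boundary component is a smooth divisor -/
theorem exists_dv (B : Bd P n) (hV : Prm (oP P) V) {e : B.ι} (he : B.v e = nv V) :
    ∃ (Q : PModel ℂ (Rf V)) (j : Hom (sv Q) (sv P)), j.p = (cen P V).p ∧ IsDv j (dv P V) := by
  have := Geo.eft P
  obtain ⟨Q, h⟩ := (pl_bd B hV he).exists_mdl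
  refine ⟨Q, h.mor, cen_p.symm, ⟨fun x y hxy => (h.ov x).eq_up (hxy ▸ h.ov y),
    fun x => (h.ov x).surj⟩, fun y hy => Geo.at_dv_off fun h1 => ?_, fun x => ?_⟩
  · obtain ⟨x, hx⟩ := h.down y h1
    exact hy ⟨x, h.map_eq hx⟩
  · have h1 : Cns.Ov (h.mor.map x) V.1 := (h.ov x).le
    obtain ⟨t, ht⟩ := Geo.exists_eqn hV h1
    refine ⟨t, ht.mem, Geo.at_dv hV ht, fun f hf => ?_⟩
    refine ((Pl.r_eq_zero (p := Cyc.plV V) (h1 f hf)).trans (Geo.nv_lt_one hV.dvs).symm).trans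
      ⟨ht.div f hf, fun h2 => ?_⟩
    rw [← div_mul_cancel₀ f ht.ne, map_mul]
    exact (mul_le_of_le_one_left' (ht.loc.le _ h2)).trans_lt ht.lt

theorem v_mon {B : Bd P n} {g : K} (hg : B.Mon g) (hV : Prm (oP P) V) (h : ∀ e, B.v e ≠ nv V) :
    V.v g = 1 := by
  have := Geo.eft P
  obtain ⟨x, hx⟩ := Geo.exists_ov (P := P) V
  have h1 := (Geo.on_nv hV.dvs).2 hx
  have h2 := h1.v_un (hg x)
  have h3 : nv V (B.mon x fun e => Res.Out.ord (B.v e) g) = 1 := by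
    rw [Bd.mon, map_prod]
    refine Finset.prod_eq_one fun e _ => ?_
    by_cases he : Res.Log.On (B.v e) x
    · rw [map_zpow₀, (Link.bd_eqn B he).v_ne (Geo.isPD_nv hV) h1 (h e).symm, one_zpow]
    · rw [B.off e x he, one_zpow, map_one]
  rw [map_div₀, h3, div_one] at h2
  exact (Geo.nv_eq_one hV.dvs).1 h2

/-- a model on which the components of `a` are smooth -/
theorem exists_snc [Algebra.EssFiniteType ℂ K] (a : BD ℂ K) (T : Finset (BD ℂ K)) :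
    ∃ (P : PModel ℂ K) (n : ℕ) (B : Bd P n), (∀ b ∈ T, b ∈ On P) ∧
      ∀ V, Prm (oP P) V → od V a ≠ 0 → ∃ e, B.v e = nv V := by
  classical
  obtain ⟨P₀⟩ := Unf.nonempty_pmodel (F := K)
  obtain ⟨b₀⟩ := exists_basis P₀
  obtain ⟨b, c, ⟨s, -, hs⟩, ⟨t, -, ht⟩, rfl⟩ := exists_sub a
  obtain ⟨P, B, 𝒢, h1, h2, -, h3⟩ := Unf.exists_logRes_on b₀ P₀ {s, t} T
  refine ⟨P, _, B, h3, fun V hV h => by_contra fun h4 => h ?_⟩
  obtain ⟨f, hf, h5⟩ := hs V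
  obtain ⟨g, hg, h6⟩ := ht V
  rw [Geo.od_eq_zero hV.dvs, val_sub, ← h5, ← h6,
    v_mon (h2.mon s (h1 (by simp)) f hf (ne_of_val h5)) hV (not_exists.1 h4),
    v_mon (h2.mon t (h1 (by simp)) g hg (ne_of_val h6)) hV (not_exists.1 h4), div_one]

variable (C : Coh.Th) [hC : Ok C]

/-- exceptional divisors have no periods -/
theorem itgH_exc (hV : Dvs V) (h : ¬ Prm (oP P) V) (y : C.H (sv P)) :
    itgH C (Rf V) (ev C (cen P V) y) = 0 := by
  have := Geo.eft P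
  have := Geo.essFT_Rf hV
  obtain ⟨K₀, w₀, x, t, h1, h2, h3, h4, h5, -⟩ := exists_res (cen P V)
  refine itgH_eq_zero C h2 (fun h6 => h ?_) y
  rw [cen_p] at h3 h5
  have h7 : Gj.dm ℂ K - 1 = dim ℂ K₀ := by rw [Geo.dm_eq, Geo.dim_Rf' hV, h6]; rfl
  exact ⟨hV.ne_top, fun i => t (Fin.cast h7 i), fun i => Geo.lp_le_loc h3 (h4 _),
    (Geo.resInd_iff (Cyc.lnr_plV V) fun i => h3 (h4 _)).2 (h5.comp _ (Fin.cast_injective h7))⟩

theorem itg_dv {Q : PModel ℂ (Rf V)} {j : Hom (sv Q) (sv P)} (h1 : j.p = (cen P V).p)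
    (h2 : IsDv j (dv P V)) (y : C.H (sv P)) :
    C.itg (sv P) (C.c1 (sv P) (dv P V) * y) = itgH C (Rf V) (ev C (cen P V) y) := by
  rw [← hC.pl0 j _ h2, hC.pd.push_spec, one_mul, ← map_gen_id h1, ev_map, itgH_id]

/-- **cycle formula** -/
theorem cycH [Algebra.EssFiniteType ℂ K] (a : BD ℂ K) (x : HH C K) :
    itgH C K (c1H C a * x) =
      ∑ᶠ (V : RZ ℂ K) (_ : Dvs V), od V a * itgH C (Rf V) (pbH C (Hb.LP.at V) x) := by
  classical
  obtain ⟨i, y, rfl⟩ := exists_ev C x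
  obtain ⟨a₀, h₀⟩ := exists_bd i.w
  obtain ⟨P, n, B, h1, h2⟩ := exists_snc a {a, a₀}
  obtain ⟨μ, hμ⟩ := h₀ P (h1 _ (by simp))
  have ha : a ∈ On P := h1 _ (by simp)
  rw [← map_gen_id hμ, ev_map, c1H_id C ha, ← map_mul, itgH_id]
  simp only [pbH_ev]
  rw [finsum_cond_eq_sum_of_cond_iff (fun V => (od V a : ℂ) * itgH C (Rf V) (ev C (cen P V)
    (C.pb μ y))) (t := sp P a) fun {V} h => ⟨fun hV => Geo.mem_sp.2
    ⟨by_contra fun h3 => right_ne_zero_of_mul h (itgH_exc C hV h3 _),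
      Int.cast_ne_zero.1 (left_ne_zero_of_mul h)⟩, fun hV => (Geo.mem_sp.1 hV).1.dvs⟩]
  conv_lhs => rw [Geo.eq_sum_sp ha]
  rw [hC.man.c1_sum (X := sv P) _ fun V _ => zsmul_mem (Geo.dv_mem V) _, Finset.sum_mul, map_sum]
  refine Finset.sum_congr rfl fun V hV => ?_
  obtain ⟨h3, h4⟩ := Geo.mem_sp.1 hV
  obtain ⟨e, he⟩ := h2 V h3 h4
  obtain ⟨Q, j, h5, h6⟩ := exists_dv B h3 he
  rw [hC.man.c1_zsmul (X := sv P) (Geo.dv_mem V), smul_mul_assoc, map_zsmul, itg_dv C h5 h6,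
    zsmul_eq_mul]

/-- **the b-cohomology theory of a cohomology theory** -/
def th : Hb.Th where
  H K _ _ := HH C K
  cr _ _ _ := inferInstance
  al _ _ _ := inferInstance
  pb p := pbH C p
  itg K _ _ := itgH C K
  c1 := c1H C
  ty K _ _ := tyH C K

theorem th_pb {E : Type} [Field E] [Algebra ℂ E] (p : Hb.LP K E) : (th C).pb p = pbH C p := rfl

theorem th_itg : (th C).itg K = itgH C K := rfl

theorem th_c1 (a : BD ℂ K) : (th C).c1 a = c1H C a := rfl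

theorem th_ty (p q : ℕ) : (th C).ty K p q = tyH C K p q := rfl

theorem th_ax : (th C).Ax where
  pb_comp := pbH_comp C
  pb_id := pbH_id C
  loc := locH C
  c1_pr := c1H_pr C
  pb_c1 := pbH_c1 C
  deg α := itgH_pb C α
  cyc := cycH C
  pd := pdH C
  itg_one := itgH_one C
  pt := ptH C
  fub := fubH C
  ty_one := tyH_one C
  ty_c1 := tyH_c1 C
  ty_mul := tyH_mul C
  ty_pb π _ _ _ := tyH_pb C π
  ty_itg := tyH_itg C
  ty_zero := tyH_zero C

end Crest.Agent.X262.Hb64
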